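import Vale.Agent.P076.H629.XBase
import Vale.Agent.P076.H263.Max
import Vale.Agent.P076.H416.TelX
import Vale.Agent.P076.H972.EnF
import Vale.Agent.P076.X.Rep
import Vale.Agent.P076.X.Amp

/-! # P076, TS.SLAB, CRUDE: `L²` count of the squares on which the local energies at scales `S ≤ T` differ -/

set_option linter.all false

open MeasureTheory Set

namespace Vale.Agent.P076.H249

open Vale.Agent.P076.X

/-- the multiplier bound -/
theorem kh_diff_sq {B : ℝ} (hB : 1 ≤ B) : ∃ C : ℝ, 0 < C ∧ ∀ S T a : ℝ, 0 < S → S ≤ T →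
    (kh B S a - kh B T a) ^ 2 ≤ C * (T / S) ^ 4 *
      (Real.exp (-(Real.pi * S ^ 2 * a ^ 2)) * min 1 (S * |a|)) := by
  set c := 4 * Real.pi ^ 2 * B ^ 2 + Real.pi / 2 with hc
  have hB0 : 0 < B := by linarith
  have hpi := Real.pi_pos
  have hc0 : 0 < c := by positivity
  refine ⟨(c ^ 2 + 1) * Real.exp Real.pi, by positivity, fun S T a hS hST => ?_⟩
  have hT : 0 < T := hS.trans_le hST
  have hTS : 1 ≤ T / S := by rwa [le_div_iff₀ hS, one_mul]
  have hTS4 : 1 ≤ (T / S) ^ 4 := one_le_pow₀ hTS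
  have hD0 : 0 ≤ kh B S a - kh B T a := sub_nonneg.2 (H263.kh_anti hB0 hS hST a)
  have hE1 : 1 ≤ Real.exp Real.pi := Real.one_le_exp hpi.le
  have hC1 : 1 ≤ (c ^ 2 + 1) * Real.exp Real.pi := by nlinarith [sq_nonneg c]
  rcases le_total 1 (S * |a|) with h1 | h1
  · rw [min_eq_left h1, mul_one]
    have h2 : kh B S a - kh B T a ≤ Real.exp (-(Real.pi * S ^ 2 * a ^ 2 / 2)) :=
      (sub_le_self _ (H263.kh_nonneg hB0 hT a)).trans (H263.kh_le_exp hB0 hS a)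
    have h3 : (kh B S a - kh B T a) ^ 2 ≤ Real.exp (-(Real.pi * S ^ 2 * a ^ 2)) := by
      have := pow_le_pow_left₀ hD0 h2 2
      rwa [← Real.exp_nat_mul, show ((2:ℕ):ℝ) * -(Real.pi * S ^ 2 * a ^ 2 / 2)
        = -(Real.pi * S ^ 2 * a ^ 2) by push_cast; ring] at this
    have h4 : (1:ℝ) ≤ (c ^ 2 + 1) * Real.exp Real.pi * (T / S) ^ 4 := by nlinarith
    calc (kh B S a - kh B T a) ^ 2 ≤ 1 * Real.exp (-(Real.pi * S ^ 2 * a ^ 2)) := by rwa [one_mul]
      _ ≤ _ := mul_le_mul_of_nonneg_right h4 (Real.exp_pos _).le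
  · rw [min_eq_right h1]
    have h2 : kh B S a - kh B T a ≤ c * (T ^ 2 * a ^ 2) := by
      have e1 := H263.kh_le_one hB0 hS a
      have e2 := H263.kh_eq hB0 hT a
      have e3 := H263.one_sub_Wm_le (mul_pos hB0 hT) a
      have e4 := Real.one_sub_le_exp_neg (Real.pi * T ^ 2 * a ^ 2 / 2)
      have e5 := H263.Wm_le_one (mul_pos hB0 hT) a
      have e7 : Real.exp (-(Real.pi * T ^ 2 * a ^ 2 / 2)) ≤ 1 := Real.exp_le_one_iff.2 (by
        have : 0 ≤ Real.pi * T ^ 2 * a ^ 2 / 2 := by positivity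
        linarith)
      have e9 : 1 - kh B T a ≤ (1 - H263.Wm (B * T) a)
          + (1 - Real.exp (-(Real.pi * T ^ 2 * a ^ 2 / 2))) := by
        rw [e2]
        nlinarith [mul_nonneg (sub_nonneg.2 e5) (sub_nonneg.2 e7)]
      rw [hc]
      nlinarith
    have h3 : (kh B S a - kh B T a) ^ 2 ≤ (c * (T ^ 2 * a ^ 2)) ^ 2 := pow_le_pow_left₀ hD0 h2 2
    have h4 : (c * (T ^ 2 * a ^ 2)) ^ 2 = c ^ 2 * (T / S) ^ 4 * (S * |a|) ^ 4 := by
      have : (S * |a|) ^ 4 = S ^ 4 * (a ^ 2) ^ 2 := by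
        rw [mul_pow, show |a| ^ 4 = (|a| ^ 2) ^ 2 by ring, sq_abs]
      rw [this]
      field_simp
    have h5 : (S * |a|) ^ 4 ≤ S * |a| := by
      have h0 : 0 ≤ S * |a| := by positivity
      calc (S * |a|) ^ 4 ≤ (S * |a|) ^ 1 := pow_le_pow_of_le_one h0 h1 (by norm_num)
        _ = _ := pow_one _
    have h6 : Real.exp (-Real.pi) ≤ Real.exp (-(Real.pi * S ^ 2 * a ^ 2)) := by
      apply Real.exp_le_exp.2
      have h0 : 0 ≤ S * |a| := by positivity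
      have : S ^ 2 * a ^ 2 ≤ 1 := by
        rw [← sq_abs a, ← mul_pow]; exact pow_le_one₀ h0 h1
      nlinarith
    have h7 : 1 ≤ Real.exp Real.pi * Real.exp (-(Real.pi * S ^ 2 * a ^ 2)) := by
      calc (1:ℝ) = Real.exp Real.pi * Real.exp (-Real.pi) := by rw [← Real.exp_add]; simp
        _ ≤ _ := mul_le_mul_of_nonneg_left h6 (Real.exp_pos _).le
    calc (kh B S a - kh B T a) ^ 2 ≤ c ^ 2 * (T / S) ^ 4 * (S * |a|) ^ 4 := h4 ▸ h3
      _ ≤ c ^ 2 * (T / S) ^ 4 * (S * |a|) := mul_le_mul_of_nonneg_left h5 (by positivity)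
      _ ≤ (c ^ 2 + 1) * (T / S) ^ 4 * (S * |a|) :=
          mul_le_mul_of_nonneg_right (mul_le_mul_of_nonneg_right (by linarith) (by positivity)) (by positivity)
      _ = (c ^ 2 + 1) * (T / S) ^ 4 * (S * |a|) * 1 := by ring
      _ ≤ (c ^ 2 + 1) * (T / S) ^ 4 * (S * |a|) *
          (Real.exp Real.pi * Real.exp (-(Real.pi * S ^ 2 * a ^ 2))) :=
          mul_le_mul_of_nonneg_left h7 (by positivity)
      _ = _ := by ring

/-- the difference of the local energies through the Fourier transform of `|v|²` -/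
theorem En_diff {B S T : ℝ} (hB : 0 < B) (hS : 0 < S) (hT : 0 < T) {h : ℝ → ℂ} (hh : Good h) (x t : ℝ) :
    Integrable (fun a => ((kh B S a - kh B T a : ℝ) : ℂ) * uh h h a t) ∧
    ((En B S x t h - En B T x t h : ℝ) : ℂ) =
      ∫ a, (((kh B S a - kh B T a : ℝ) : ℂ) * uh h h a t) * ex (x * a) := by
  obtain ⟨i1, e1⟩ := H972.stEnF B S hB hS h hh x t
  obtain ⟨i2, e2⟩ := H972.stEnF B T hB hT h hh x t
  have hf : (fun a => ((kh B S a - kh B T a : ℝ) : ℂ) * uh h h a t) =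
      fun a => (kh B S a : ℂ) * uh h h a t - (kh B T a : ℂ) * uh h h a t := by
    funext a; push_cast; ring
  have j1 : Integrable (fun a => (kh B S a : ℂ) * uh h h a t * ex (x * a)) := by
    refine i1.mul_bdd (c := 1) ?_ (Filter.Eventually.of_forall fun a => (H972.norm_ex _).le)
    exact (H972.continuous_ex.comp (by fun_prop)).aestronglyMeasurable
  have j2 : Integrable (fun a => (kh B T a : ℂ) * uh h h a t * ex (x * a)) := by
    refine i2.mul_bdd (c := 1) ?_ (Filter.Eventually.of_forall fun a => (H972.norm_ex _).le)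
    exact (H972.continuous_ex.comp (by fun_prop)).aestronglyMeasurable
  refine ⟨by rw [hf]; exact i1.sub i2, ?_⟩
  push_cast
  rw [e1, e2, ← integral_sub j1 j2]
  refine integral_congr_ae (Filter.Eventually.of_forall fun a => ?_)
  show (kh B S a : ℂ) * uh h h a t * ex (x * a) - (kh B T a : ℂ) * uh h h a t * ex (x * a) =
    ((kh B S a : ℂ) - (kh B T a : ℂ)) * uh h h a t * ex (x * a)
  ring

/-- Plancherel in `x` at a fixed time -/
theorem lint_diff {B S T : ℝ} (hB : 0 < B) (hS : 0 < S) (hST : S ≤ T) {h : ℝ → ℂ} (hh : Good h) (t : ℝ) :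
    ∫⁻ x, ENNReal.ofReal ((En B S x t h - En B T x t h) ^ 2) =
      ∫⁻ a, ENNReal.ofReal ((kh B S a - kh B T a) ^ 2 * ‖uh h h a t‖ ^ 2) := by
  have hT : 0 < T := hS.trans_le hST
  have hi := (En_diff hB hS hT hh 0 t).1
  have hbd : ∀ a, ‖((kh B S a - kh B T a : ℝ) : ℂ) * uh h h a t‖ ≤ ms h := by
    intro a
    rw [norm_mul, Complex.norm_real, Real.norm_eq_abs,
      abs_of_nonneg (sub_nonneg.2 (H263.kh_anti hB hS hST a))]
    have h1 : kh B S a - kh B T a ≤ 1 :=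
      (sub_le_self _ (H263.kh_nonneg hB hT a)).trans (H263.kh_le_one hB hS a)
    calc (kh B S a - kh B T a) * ‖uh h h a t‖ ≤ 1 * ‖uh h h a t‖ :=
          mul_le_mul_of_nonneg_right h1 (norm_nonneg _)
      _ = ‖uh h h a t‖ := one_mul _
      _ ≤ _ := H629.uh_norm_le hh a t
  have hm := H416.memLp_two_of_bdd hi hbd
  have hp := planch_ex _ hi hm
  have e1 : ∀ x, ENNReal.ofReal ((En B S x t h - En B T x t h) ^ 2) =
      ‖∫ a, (((kh B S a - kh B T a : ℝ) : ℂ) * uh h h a t) * ex (x * a)‖ₑ ^ 2 := by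
    intro x
    rw [← (En_diff hB hS hT hh x t).2, ← ofReal_norm, ← ENNReal.ofReal_pow (norm_nonneg _),
      Complex.norm_real, Real.norm_eq_abs, sq_abs]
  have e2 : ∀ a, ENNReal.ofReal ((kh B S a - kh B T a) ^ 2 * ‖uh h h a t‖ ^ 2) =
      ‖((kh B S a - kh B T a : ℝ) : ℂ) * uh h h a t‖ₑ ^ 2 := by
    intro a
    rw [← ofReal_norm, ← ENNReal.ofReal_pow (norm_nonneg _), norm_mul, mul_pow,
      Complex.norm_real, Real.norm_eq_abs, sq_abs]
  simp_rw [e1, e2]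
  exact hp

/-- the quartic functional is small when the amplitudes are small -/
theorem Fq_small {S t M : ℝ} (hS : 0 < S) {h : ℝ → ℂ} (hh : Good h) (hM : ∀ y η, ‖cf S y η t h‖ ≤ M) :
    Fq S t h h ≤ S⁻¹ * (M ^ 2 * ms h) := by
  have hsq := int_cf_sq hh S t hS
  unfold Fq
  refine mul_le_mul_of_nonneg_left ?_ (by positivity)
  rw [← integral_cf_sq hh S t hS, ← integral_const_mul]
  refine integral_mono_of_nonneg (Filter.Eventually.of_forall fun p => by positivity)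
    (hsq.const_mul _) (Filter.Eventually.of_forall fun p => ?_)
  show ‖cf S p.1 p.2 t h‖ ^ 2 * ‖cf S p.1 p.2 t h‖ ^ 2 ≤ M ^ 2 * ‖cf S p.1 p.2 t h‖ ^ 2
  exact mul_le_mul_of_nonneg_right (pow_le_pow_left₀ (norm_nonneg _) (hM _ _) 2) (by positivity)

/-- the `L²` bound on the time interval `[t₀ - 2S², t₀ + 2S²]` -/
theorem lint_total {B : ℝ} (hB : 1 ≤ B) : ∃ C : ℝ, 0 < C ∧ ∀ S T t₀ b : ℝ, 0 < S → S ≤ T → 0 < b →
    ∀ h : ℝ → ℂ, Good h → (∀ y η, ‖cf S y η t₀ h‖ ≤ b * Real.sqrt S) →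
    ∫⁻ t in Icc (t₀ - 2 * S ^ 2) (t₀ + 2 * S ^ 2), ∫⁻ x, ENNReal.ofReal ((En B S x t h - En B T x t h) ^ 2)
      ≤ ENNReal.ofReal (C * (T / S) ^ 4 * S ^ 2 * b ^ 2 * ms h) := by
  obtain ⟨C₁, hC₁, hk⟩ := kh_diff_sq hB
  obtain ⟨C₂, hC₂, hH⟩ := H416.stBHL
  obtain ⟨C₃, hC₃, hA⟩ := stAmp
  have hB0 : 0 < B := by linarith
  refine ⟨4 * C₁ * C₂ * C₃ ^ 2, by positivity, fun S T t₀ b hS hST hb h hh hsm => ?_⟩
  have hT : 0 < T := hS.trans_le hST
  have hms : 0 ≤ ms h := H629.ms_nonneg h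
  set F : ℝ → ℝ → ℝ := fun t a => Real.exp (-(Real.pi * S ^ 2 * a ^ 2)) * min 1 (S * |a|) *
    ‖uh h h a t‖ ^ 2 with hF
  have hmin0 : ∀ a : ℝ, 0 ≤ min 1 (S * |a|) := fun a => le_min zero_le_one (by positivity)
  have hF0 : ∀ t a, 0 ≤ F t a := fun t a => by
    have := hmin0 a
    rw [hF]; positivity
  have hFm : Measurable (Function.uncurry F) := by
    have h1 : Measurable (fun p : ℝ × ℝ => uh h h p.2 p.1) := (H629.uh_meas hh).comp measurable_swap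
    have h2 : Measurable (fun p : ℝ × ℝ => Real.exp (-(Real.pi * S ^ 2 * p.2 ^ 2)) * min 1 (S * |p.2|)) := by
      fun_prop
    exact h2.mul (h1.norm.pow_const 2)
  have hki : Integrable (fun a => Real.exp (-(Real.pi * S ^ 2 * a ^ 2)) * (ms h) ^ 2) := by
    have := (integrable_exp_neg_mul_sq (b := Real.pi * S ^ 2) (by positivity)).mul_const ((ms h) ^ 2)
    refine this.congr (Filter.Eventually.of_forall fun a => ?_)
    show Real.exp (-(Real.pi * S ^ 2) * a ^ 2) * (ms h) ^ 2 = Real.exp (-(Real.pi * S ^ 2 * a ^ 2)) * (ms h) ^ 2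
    rw [neg_mul]
  have hFb : ∀ t a, F t a ≤ Real.exp (-(Real.pi * S ^ 2 * a ^ 2)) * (ms h) ^ 2 := by
    intro t a
    rw [hF]
    refine mul_le_mul ?_ (pow_le_pow_left₀ (norm_nonneg _) (H629.uh_norm_le hh a t) 2) (by positivity)
      (Real.exp_pos _).le
    exact mul_le_of_le_one_right (Real.exp_pos _).le (min_le_left _ _)
  have hJ : volume (Icc (t₀ - 2 * S ^ 2) (t₀ + 2 * S ^ 2)) ≠ ⊤ := by
    rw [Real.volume_Icc]; exact ENNReal.ofReal_ne_top
  have hii := H416.ofReal_iint hFm hF0 hki hFb _ hJ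
  -- first step
  have hC0 : 0 ≤ C₁ * (T / S) ^ 4 := by positivity
  have s1 : ∫⁻ t in Icc (t₀ - 2 * S ^ 2) (t₀ + 2 * S ^ 2), ∫⁻ x,
      ENNReal.ofReal ((En B S x t h - En B T x t h) ^ 2) ≤
      ENNReal.ofReal (C₁ * (T / S) ^ 4) * ENNReal.ofReal
        (∫ t in Icc (t₀ - 2 * S ^ 2) (t₀ + 2 * S ^ 2), ∫ a, F t a) := by
    rw [hii, ← lintegral_const_mul' _ _ ENNReal.ofReal_ne_top]
    refine lintegral_mono fun t => ?_
    rw [lint_diff hB0 hS hST hh t, ← lintegral_const_mul' _ _ ENNReal.ofReal_ne_top]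
    refine lintegral_mono fun a => ?_
    rw [← ENNReal.ofReal_mul hC0]
    refine ENNReal.ofReal_le_ofReal ?_
    calc (kh B S a - kh B T a) ^ 2 * ‖uh h h a t‖ ^ 2
        ≤ (C₁ * (T / S) ^ 4 * (Real.exp (-(Real.pi * S ^ 2 * a ^ 2)) * min 1 (S * |a|))) *
          ‖uh h h a t‖ ^ 2 := mul_le_mul_of_nonneg_right (hk S T a hS hST) (by positivity)
      _ = _ := by rw [hF]; ring
  -- second step
  have hbh := hH S hS (t₀ - 2 * S ^ 2) (4 * S ^ 2) (by nlinarith [sq_nonneg S]) h h hh hh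
  have hle : t₀ - 2 * S ^ 2 ≤ t₀ - 2 * S ^ 2 + 4 * S ^ 2 := by nlinarith [sq_nonneg S]
  have hend : t₀ - 2 * S ^ 2 + 4 * S ^ 2 = t₀ + 2 * S ^ 2 := by ring
  have s2 : ∫ t in Icc (t₀ - 2 * S ^ 2) (t₀ + 2 * S ^ 2), ∫ a, F t a ≤
      C₂ * (4 * S ^ 2 * (C₃ ^ 2 * b ^ 2 * ms h)) := by
    rw [intervalIntegral.integral_of_le hle, intervalIntegral.integral_of_le hle,
      ← integral_Icc_eq_integral_Ioc, ← integral_Icc_eq_integral_Ioc, hend] at hbh
    refine hbh.trans (mul_le_mul_of_nonneg_left ?_ hC₂.le)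
    have hbound : ∀ t ∈ Icc (t₀ - 2 * S ^ 2) (t₀ + 2 * S ^ 2), Fq S t h h ≤ C₃ ^ 2 * b ^ 2 * ms h := by
      intro t ht
      have ht' : |t - t₀| ≤ 8 * S ^ 2 := by
        rw [abs_le]; constructor <;> nlinarith [ht.1, ht.2, sq_nonneg S]
      have h1 := hA S S t₀ t (b * Real.sqrt S) hS (by linarith) (by linarith) ht' h hh hsm
      refine (Fq_small hS hh h1).trans (le_of_eq ?_)
      have : (C₃ * (b * Real.sqrt S)) ^ 2 = C₃ ^ 2 * b ^ 2 * S := by
        rw [mul_pow, mul_pow, Real.sq_sqrt hS.le]; ring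
      rw [this]
      field_simp
    calc ∫ t in Icc (t₀ - 2 * S ^ 2) (t₀ + 2 * S ^ 2), Fq S t h h
        ≤ ∫ t in Icc (t₀ - 2 * S ^ 2) (t₀ + 2 * S ^ 2), C₃ ^ 2 * b ^ 2 * ms h :=
          setIntegral_mono_on (H416.integrableOn_Fq hh hh hS _ hJ)
            (integrableOn_const hJ) measurableSet_Icc hbound
      _ = 4 * S ^ 2 * (C₃ ^ 2 * b ^ 2 * ms h) := by
          rw [setIntegral_const, smul_eq_mul, Measure.real, Real.volume_Icc,
            ENNReal.toReal_ofReal (by nlinarith [sq_nonneg S])]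
          ring
  refine s1.trans ?_
  rw [← ENNReal.ofReal_mul hC0]
  refine ENNReal.ofReal_le_ofReal ?_
  calc C₁ * (T / S) ^ 4 * ∫ t in Icc (t₀ - 2 * S ^ 2) (t₀ + 2 * S ^ 2), ∫ a, F t a
      ≤ C₁ * (T / S) ^ 4 * (C₂ * (4 * S ^ 2 * (C₃ ^ 2 * b ^ 2 * ms h))) :=
        mul_le_mul_of_nonneg_left s2 hC0
    _ = _ := by ring

/-- the square of side `S` with index `q`, in coordinates `(t, x)` -/
def sqr (S : ℝ) (q : ℤ × ℤ) : Set (ℝ × ℝ) :=
  Ico (q.2 * S) ((q.2 + 1) * S) ×ˢ Ico (q.1 * S) ((q.1 + 1) * S)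

theorem disj_sqr {S : ℝ} (hS : 0 < S) {q q' : ℤ × ℤ} (hq : q ≠ q') : Disjoint (sqr S q) (sqr S q') := by
  rw [Set.disjoint_left]
  rintro ⟨t, x⟩ ⟨h1, h2⟩ ⟨h3, h4⟩
  apply hq
  have fl : ∀ (k : ℤ) (u : ℝ), u ∈ Ico (k * S) ((k + 1) * S) → ⌊u / S⌋ = k := by
    intro k u hu
    rw [Int.floor_eq_iff]
    exact ⟨by rw [le_div_iff₀ hS]; exact hu.1, by rw [div_lt_iff₀ hS]; exact hu.2⟩
  exact Prod.ext ((fl _ _ h2).symm.trans (fl _ _ h4)) ((fl _ _ h1).symm.trans (fl _ _ h3))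

/-- **count of the bad squares** -/
theorem bb_count {B : ℝ} (hB : 1 ≤ B) : ∃ C : ℝ, 0 < C ∧ ∀ S T t₀ b Y : ℝ, 0 < S → S ≤ T → 0 < b → 0 < Y →
    ∀ h : ℝ → ℂ, Good h → (∀ y η, ‖cf S y η t₀ h‖ ≤ b * Real.sqrt S) → ∀ Q : Finset (ℤ × ℤ),
    (∀ q ∈ Q, ∀ x t : ℝ, q.1 * S ≤ x → x < (q.1 + 1) * S → q.2 * S ≤ t → t < (q.2 + 1) * S →
      |t - t₀| ≤ 2 * S ^ 2 ∧ Y ≤ En B S x t h - En B T x t h) →
    Y ^ 2 * Q.card ≤ C * (T / S) ^ 4 * b ^ 2 * ms h := by
  obtain ⟨C, hC, hL⟩ := lint_total hB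
  refine ⟨C, hC, fun S T t₀ b Y hS hST hb hY h hh hsm Q hQ => ?_⟩
  have hB0 : 0 < B := by linarith
  have hms : 0 ≤ ms h := H629.ms_nonneg h
  have hL := hL S T t₀ b hS hST hb h hh hsm
  set f : ℝ × ℝ → ENNReal := fun p => ENNReal.ofReal ((En B S p.2 p.1 h - En B T p.2 p.1 h) ^ 2) with hf
  have hfm : Measurable f := by
    have h1 := (H629.En_meas B S hh.1).comp measurable_swap
    have h2 := (H629.En_meas B T hh.1).comp measurable_swap
    exact ((h1.sub h2).pow_const 2).ennreal_ofReal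
  have hmeas : ∀ q, MeasurableSet (sqr S q) := fun q => measurableSet_Ico.prod measurableSet_Ico
  have s1 : ∀ q ∈ Q, ENNReal.ofReal (Y ^ 2 * S ^ 2) ≤ ∫⁻ p in sqr S q, f p ∂(volume.prod volume) := by
    intro q hq
    have hv : (volume.prod volume) (sqr S q) = ENNReal.ofReal (S ^ 2) := by
      unfold sqr
      rw [Measure.prod_prod, Real.volume_Ico, Real.volume_Ico, ← ENNReal.ofReal_mul (by nlinarith)]
      congr 1; ring
    calc ENNReal.ofReal (Y ^ 2 * S ^ 2) = ENNReal.ofReal (Y ^ 2) * (volume.prod volume) (sqr S q) := by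
          rw [hv, ENNReal.ofReal_mul (by positivity)]
      _ = ∫⁻ p in sqr S q, ENNReal.ofReal (Y ^ 2) ∂(volume.prod volume) := by
          rw [setLIntegral_const]
      _ ≤ _ := by
          refine setLIntegral_mono hfm fun p hp => ?_
          obtain ⟨hp1, hp2⟩ := hp
          have := (hQ q hq p.2 p.1 hp2.1 hp2.2 hp1.1 hp1.2).2
          exact ENNReal.ofReal_le_ofReal (pow_le_pow_left₀ hY.le this 2)
  have s2 : (Q.card : ENNReal) * ENNReal.ofReal (Y ^ 2 * S ^ 2) ≤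
      ENNReal.ofReal (C * (T / S) ^ 4 * S ^ 2 * b ^ 2 * ms h) := by
    calc (Q.card : ENNReal) * ENNReal.ofReal (Y ^ 2 * S ^ 2)
        = ∑ q ∈ Q, ENNReal.ofReal (Y ^ 2 * S ^ 2) := by rw [Finset.sum_const, nsmul_eq_mul]
      _ ≤ ∑ q ∈ Q, ∫⁻ p in sqr S q, f p ∂(volume.prod volume) := Finset.sum_le_sum s1
      _ = ∫⁻ p in ⋃ q ∈ Q, sqr S q, f p ∂(volume.prod volume) := by
          rw [lintegral_biUnion_finset (fun q _ q' _ hqq => disj_sqr hS hqq) (fun q _ => hmeas q)]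
      _ ≤ ∫⁻ p in Icc (t₀ - 2 * S ^ 2) (t₀ + 2 * S ^ 2) ×ˢ univ, f p ∂(volume.prod volume) := by
          refine lintegral_mono_set ?_
          intro p hp
          simp only [mem_iUnion] at hp
          obtain ⟨q, hq, hp1, hp2⟩ := hp
          have := (hQ q hq p.2 p.1 hp2.1 hp2.2 hp1.1 hp1.2).1
          rw [abs_le] at this
          exact ⟨⟨by linarith [this.1], by linarith [this.2]⟩, mem_univ _⟩
      _ = ∫⁻ t in Icc (t₀ - 2 * S ^ 2) (t₀ + 2 * S ^ 2), ∫⁻ x, f (t, x) := by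
          rw [← Measure.prod_restrict, Measure.restrict_univ, lintegral_prod _ hfm.aemeasurable]
      _ ≤ _ := hL
  have hR0 : 0 ≤ C * (T / S) ^ 4 * S ^ 2 * b ^ 2 * ms h := by positivity
  rw [← ENNReal.ofReal_natCast, ← ENNReal.ofReal_mul (by positivity),
    ENNReal.ofReal_le_ofReal_iff hR0] at s2
  have hS2 : 0 < S ^ 2 := by positivity
  refine le_of_mul_le_mul_right ?_ hS2
  calc Y ^ 2 * Q.card * S ^ 2 = Q.card * (Y ^ 2 * S ^ 2) := by ring
    _ ≤ _ := s2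
    _ = _ := by ring

end Vale.Agent.P076.H249
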