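import Vale.Agent.P076.H249.BB
import Vale.Agent.P076.H40.Bern

/-! # P076, TS.SLAB, CRUDE: the exceptional squares -/

set_option linter.all false

open MeasureTheory Set
open scoped ContDiff

namespace Vale.Agent.P076.H249

open Vale.Agent.P076.X

/-! ### weights of two scales -/

theorem W2_mul {S T : ℝ} (hS : 0 < S) (hST : S ≤ T) (a b : ℝ) :
    W T a * W S b ≤ 25 * W T (a + b) * (W T a + W S b) := by
  have hT : 0 < T := hS.trans_le hST
  have hpi := Real.pi_pos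
  have n1 := H972.W_nonneg hT a
  have n2 := H972.W_nonneg hS b
  have n3 := H972.W_nonneg hT (a + b)
  rcases le_total |b| |a| with h | h
  · have h4 : (a + b) ^ 2 ≤ 4 * a ^ 2 := by
      rw [← sq_abs (a + b), ← sq_abs a]
      have h5 : |a + b| ≤ 2 * |a| := by linarith [abs_add_le a b]
      have := pow_le_pow_left₀ (abs_nonneg _) h5 2
      nlinarith
    have h6 : W T a ≤ 25 * W T (a + b) := by
      rw [H40.W_eq' hT, H40.W_eq' hT, ← mul_div_assoc, div_le_div_iff₀ (by positivity) (by positivity)]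
      have h7 : (T ^ 2 + (a + b) ^ 2) ^ 2 ≤ 25 * (T ^ 2 + a ^ 2) ^ 2 := by
        have h8 : T ^ 2 + (a + b) ^ 2 ≤ 4 * (T ^ 2 + a ^ 2) := by nlinarith [sq_nonneg T]
        have := pow_le_pow_left₀ (by positivity) h8 2
        nlinarith [sq_nonneg (T ^ 2 + a ^ 2)]
      calc 2 * T ^ 3 / Real.pi * (T ^ 2 + (a + b) ^ 2) ^ 2
          ≤ 2 * T ^ 3 / Real.pi * (25 * (T ^ 2 + a ^ 2) ^ 2) := mul_le_mul_of_nonneg_left h7 (by positivity)
        _ = _ := by ring
    calc W T a * W S b ≤ 25 * W T (a + b) * W S b := mul_le_mul_of_nonneg_right h6 n2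
      _ ≤ _ := by nlinarith [mul_nonneg n3 n1]
  · have h4 : (a + b) ^ 2 ≤ 4 * b ^ 2 := by
      rw [← sq_abs (a + b), ← sq_abs b]
      have h5 : |a + b| ≤ 2 * |b| := by linarith [abs_add_le a b]
      have := pow_le_pow_left₀ (abs_nonneg _) h5 2
      nlinarith
    rcases le_total |b| T with h5 | h5
    · have hb : b ^ 2 ≤ T ^ 2 := by rw [← sq_abs b]; exact pow_le_pow_left₀ (abs_nonneg _) h5 2
      have h6 : W T a ≤ 25 * W T (a + b) := by
        rw [H40.W_eq' hT, H40.W_eq' hT, ← mul_div_assoc, div_le_div_iff₀ (by positivity) (by positivity)]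
        have h7 : (T ^ 2 + (a + b) ^ 2) ^ 2 ≤ 25 * (T ^ 2 + a ^ 2) ^ 2 := by
          have h8 : T ^ 2 + (a + b) ^ 2 ≤ 5 * (T ^ 2 + a ^ 2) := by nlinarith [sq_nonneg a]
          have := pow_le_pow_left₀ (by positivity) h8 2
          nlinarith
        calc 2 * T ^ 3 / Real.pi * (T ^ 2 + (a + b) ^ 2) ^ 2
            ≤ 2 * T ^ 3 / Real.pi * (25 * (T ^ 2 + a ^ 2) ^ 2) := mul_le_mul_of_nonneg_left h7 (by positivity)
          _ = _ := by ring
      calc W T a * W S b ≤ 25 * W T (a + b) * W S b := mul_le_mul_of_nonneg_right h6 n2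
        _ ≤ _ := by nlinarith [mul_nonneg n3 n1]
    · have hb : T ^ 2 ≤ b ^ 2 := by rw [← sq_abs b]; exact pow_le_pow_left₀ hT.le h5 2
      have hb0 : 0 < b ^ 2 := lt_of_lt_of_le (by positivity) hb
      have h6 : W S b ≤ 25 * W T (a + b) := by
        rw [H40.W_eq' hS, H40.W_eq' hT, ← mul_div_assoc, div_le_div_iff₀ (by positivity) (by positivity)]
        have h7 : (T ^ 2 + (a + b) ^ 2) ^ 2 ≤ 25 * (S ^ 2 + b ^ 2) ^ 2 := by
          have h8 : T ^ 2 + (a + b) ^ 2 ≤ 5 * (S ^ 2 + b ^ 2) := by nlinarith [sq_nonneg S]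
          have := pow_le_pow_left₀ (by positivity) h8 2
          nlinarith
        have h9 : S ^ 3 ≤ T ^ 3 := pow_le_pow_left₀ hS.le hST 3
        calc 2 * S ^ 3 / Real.pi * (T ^ 2 + (a + b) ^ 2) ^ 2
            ≤ 2 * T ^ 3 / Real.pi * (25 * (S ^ 2 + b ^ 2) ^ 2) := by
              refine mul_le_mul ?_ h7 (by positivity) (by positivity)
              exact div_le_div_of_nonneg_right (by linarith) hpi.le
          _ = _ := by ring
      calc W T a * W S b ≤ W T a * (25 * W T (a + b)) := mul_le_mul_of_nonneg_left h6 n1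
        _ ≤ _ := by nlinarith [mul_nonneg n3 n2]

theorem meas_W (s c : ℝ) : Measurable fun z => ENNReal.ofReal (W s (z - c)) :=
  ENNReal.measurable_ofReal.comp ((H40.W_meas s).comp (by fun_prop))

theorem meas_W' (s c : ℝ) : Measurable fun z => ENNReal.ofReal (W s (c - z)) :=
  ENNReal.measurable_ofReal.comp ((H40.W_meas s).comp (by fun_prop))

theorem W2_conv {S T : ℝ} (hS : 0 < S) (hST : S ≤ T) (x v : ℝ) :
    ∫⁻ u, ENNReal.ofReal (W T (x - u)) * ENNReal.ofReal (W S (u - v)) ≤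
      ENNReal.ofReal 100 * ENNReal.ofReal (W T (x - v)) := by
  have hT : 0 < T := hS.trans_le hST
  have h1 : ∀ u, ENNReal.ofReal (W T (x - u)) * ENNReal.ofReal (W S (u - v)) ≤
      ENNReal.ofReal (25 * W T (x - v)) *
        (ENNReal.ofReal (W T (u - x)) + ENNReal.ofReal (W S (u - v))) := by
    intro u
    have n1 := H972.W_nonneg hT (x - u)
    have n2 := H972.W_nonneg hS (u - v)
    have n3 := H972.W_nonneg hT (x - v)
    have e1 : W T (u - x) = W T (x - u) := by rw [← H972.W_neg, neg_sub]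
    rw [e1, ← ENNReal.ofReal_mul n1, ← ENNReal.ofReal_add n1 n2, ← ENNReal.ofReal_mul (by positivity)]
    refine ENNReal.ofReal_le_ofReal ?_
    have := W2_mul hS hST (x - u) (u - v)
    rwa [sub_add_sub_cancel] at this
  refine (lintegral_mono h1).trans ?_
  have hm2 : Measurable fun z => ENNReal.ofReal (W T (z - x)) + ENNReal.ofReal (W S (z - v)) :=
    (meas_W T x).add (meas_W S v)
  rw [lintegral_const_mul _ hm2, lintegral_add_left (meas_W T x)]
  calc ENNReal.ofReal (25 * W T (x - v)) * ((∫⁻ z, ENNReal.ofReal (W T (z - x))) +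
        (∫⁻ z, ENNReal.ofReal (W S (z - v)))) ≤ ENNReal.ofReal (25 * W T (x - v)) * (2 + 2) :=
        mul_le_mul_right (add_le_add (H40.lint_W_le hT x) (H40.lint_W_le hS v)) _
    _ = _ := by
        rw [ENNReal.ofReal_mul (by norm_num), show (2:ENNReal) + 2 = ENNReal.ofReal 4 by norm_num,
          show (100:ℝ) = 25 * 4 by norm_num, ENNReal.ofReal_mul (p := 25) (q := 4) (by norm_num)]
        ring

theorem W2_conv_ge {S T : ℝ} (hS : 0 < S) (hST : S ≤ T) (x v : ℝ) :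
    ENNReal.ofReal (W T (x - v)) ≤ ENNReal.ofReal (9 * Real.pi) *
      ∫⁻ u, ENNReal.ofReal (W T (x - u)) * ENNReal.ofReal (W S (u - v)) := by
  have hT : 0 < T := hS.trans_le hST
  have hpi := Real.pi_pos
  have n3 := H972.W_nonneg hT (x - v)
  have h1 : ∀ u ∈ Icc (v - S) (v + S), ENNReal.ofReal (W T (x - v) / 9 * (1 / (2 * Real.pi * S))) ≤
      ENNReal.ofReal (W T (x - u)) * ENNReal.ofReal (W S (u - v)) := by
    intro u hu
    have hu' : |u - v| ≤ S := by rw [abs_le]; constructor <;> linarith [hu.1, hu.2]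
    rw [← ENNReal.ofReal_mul (H972.W_nonneg hT _)]
    refine ENNReal.ofReal_le_ofReal ?_
    refine mul_le_mul ?_ ?_ (by positivity) (H972.W_nonneg hT _)
    · have h2 : |x - v - (x - u)| ≤ T := by
        rw [show x - v - (x - u) = u - v by ring]; exact hu'.trans hST
      have := H629.W_comp hT h2
      linarith
    · have h3 : (u - v) ^ 2 ≤ S ^ 2 := by
        rw [← sq_abs (u - v)]; exact pow_le_pow_left₀ (abs_nonneg _) hu' 2
      rw [H40.W_eq' hS, div_le_div_iff₀ (by positivity) (by positivity)]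
      have h4 : (S ^ 2 + (u - v) ^ 2) ^ 2 ≤ 4 * S ^ 4 := by
        have := pow_le_pow_left₀ (by positivity) (by linarith : S ^ 2 + (u - v) ^ 2 ≤ 2 * S ^ 2) 2
        nlinarith
      calc 1 * (S ^ 2 + (u - v) ^ 2) ^ 2 ≤ 4 * S ^ 4 := by linarith
        _ = 2 * S ^ 3 / Real.pi * (2 * Real.pi * S) := by field_simp; ring
  have h2 : ENNReal.ofReal (W T (x - v) / 9 * (1 / (2 * Real.pi * S))) * ENNReal.ofReal (2 * S) ≤
      ∫⁻ u, ENNReal.ofReal (W T (x - u)) * ENNReal.ofReal (W S (u - v)) := by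
    calc ENNReal.ofReal (W T (x - v) / 9 * (1 / (2 * Real.pi * S))) * ENNReal.ofReal (2 * S)
        = ∫⁻ u in Icc (v - S) (v + S), ENNReal.ofReal (W T (x - v) / 9 * (1 / (2 * Real.pi * S))) := by
          rw [setLIntegral_const, Real.volume_Icc]
          congr 2; ring
      _ ≤ ∫⁻ u in Icc (v - S) (v + S), ENNReal.ofReal (W T (x - u)) * ENNReal.ofReal (W S (u - v)) :=
          setLIntegral_mono ((meas_W' T x).mul (meas_W S v)) h1
      _ ≤ _ := setLIntegral_le_lintegral _ _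
  refine le_trans (le_of_eq ?_) (mul_le_mul_right h2 _)
  rw [← ENNReal.ofReal_mul (by positivity), ← ENNReal.ofReal_mul (by positivity)]
  congr 1
  field_simp

/-! ### domination of energies passes to coarser scales -/

theorem Es_dom {B : ℝ} (hB : 1 ≤ B) : ∃ C : ℝ, 0 < C ∧ ∀ (S T t : ℝ) (g g' : ℝ → ℂ), 0 < S → S ≤ T →
    Good g → Good g' → (∀ u, En B S u t g' ≤ En B S u t g) →
    ∀ x, H40.Es T x t g' ≤ C * H40.Es T x t g := by
  obtain ⟨CW, hCW, hW⟩ := H972.stEnW B hB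
  have hc := H40.c0_pos
  have hpi := Real.pi_pos
  set D := 9 * B / H40.c0 * CW with hD
  have hD0 : 0 < D := by rw [hD]; positivity
  refine ⟨9 * Real.pi * D * 100, by positivity, fun S T t g g' hS hST hg hg' hdom x => ?_⟩
  have hT : 0 < T := hS.trans_le hST
  have hEs : ∀ u, H40.Es S u t g' ≤ D * H40.Es S u t g := by
    intro u
    have h1 := H40.Es_le_En hB hS hg'.1 u t
    have h2 := (hW S hS g hg u t).2
    have h3 : (∫ y, W S (u - y) * ‖sol g y t‖ ^ 2) = H40.Es S u t g := by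
      unfold H40.Es
      simp_rw [H40.sol_eq_ev]
    rw [h3] at h2
    calc H40.Es S u t g' ≤ 9 * B / H40.c0 * En B S u t g' := h1
      _ ≤ 9 * B / H40.c0 * (CW * H40.Es S u t g) :=
          mul_le_mul_of_nonneg_left ((hdom u).trans h2) (by positivity)
      _ = _ := by rw [hD]; ring
  have hmv : ∀ f : ℝ → ℂ, Good f → Measurable fun v => ‖H40.ev f v t‖ₑ ^ 2 := fun f hf =>
    H40.measurable_ev_x hf.1 t
  have hjm : ∀ f : ℝ → ℂ, Good f → Measurable (fun p : ℝ × ℝ => ENNReal.ofReal (W T (x - p.1)) *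
      (ENNReal.ofReal (W S (p.1 - p.2)) * ‖H40.ev f p.2 t‖ₑ ^ 2)) := by
    intro f hf
    refine Measurable.mul ?_ (Measurable.mul ?_ ((hmv f hf).comp measurable_snd))
    · exact ENNReal.measurable_ofReal.comp ((H40.W_meas T).comp (by fun_prop))
    · exact ENNReal.measurable_ofReal.comp ((H40.W_meas S).comp (by fun_prop))
  have swap : ∀ f : ℝ → ℂ, Good f → ∫⁻ v, (∫⁻ u, ENNReal.ofReal (W T (x - u)) * ENNReal.ofReal (W S (u - v))) *
      ‖H40.ev f v t‖ₑ ^ 2 = ∫⁻ u, ENNReal.ofReal (W T (x - u)) * ENNReal.ofReal (H40.Es S u t f) := by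
    intro f hf
    calc ∫⁻ v, (∫⁻ u, ENNReal.ofReal (W T (x - u)) * ENNReal.ofReal (W S (u - v))) * ‖H40.ev f v t‖ₑ ^ 2
        = ∫⁻ v, ∫⁻ u, ENNReal.ofReal (W T (x - u)) *
            (ENNReal.ofReal (W S (u - v)) * ‖H40.ev f v t‖ₑ ^ 2) := by
          refine lintegral_congr fun v => ?_
          have hm2 : Measurable fun u => ENNReal.ofReal (W T (x - u)) * ENNReal.ofReal (W S (u - v)) :=
            (meas_W' T x).mul (meas_W S v)
          rw [← lintegral_mul_const _ hm2]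
          refine lintegral_congr fun u => ?_
          rw [mul_assoc]
      _ = ∫⁻ u, ∫⁻ v, ENNReal.ofReal (W T (x - u)) *
            (ENNReal.ofReal (W S (u - v)) * ‖H40.ev f v t‖ₑ ^ 2) := by
          rw [lintegral_lintegral_swap]
          exact ((hjm f hf).comp measurable_swap).aemeasurable
      _ = _ := by
          refine lintegral_congr fun u => ?_
          rw [lintegral_const_mul' _ _ ENNReal.ofReal_ne_top, H40.Es_lint hS u t hf.1]
  have hE0 := H40.Es_nonneg hT x t g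
  rw [← ENNReal.ofReal_le_ofReal_iff (by positivity), ← H40.Es_lint hT x t hg'.1]
  calc ∫⁻ v, ENNReal.ofReal (W T (x - v)) * ‖H40.ev g' v t‖ₑ ^ 2
      ≤ ∫⁻ v, (ENNReal.ofReal (9 * Real.pi) *
          ∫⁻ u, ENNReal.ofReal (W T (x - u)) * ENNReal.ofReal (W S (u - v))) * ‖H40.ev g' v t‖ₑ ^ 2 :=
        lintegral_mono fun v => mul_le_mul_left (W2_conv_ge hS hST x v) _
    _ = ENNReal.ofReal (9 * Real.pi) * ∫⁻ v, (∫⁻ u, ENNReal.ofReal (W T (x - u)) *
          ENNReal.ofReal (W S (u - v))) * ‖H40.ev g' v t‖ₑ ^ 2 := by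
        rw [← lintegral_const_mul' _ _ ENNReal.ofReal_ne_top]
        refine lintegral_congr fun v => ?_
        rw [mul_assoc]
    _ = ENNReal.ofReal (9 * Real.pi) * ∫⁻ u, ENNReal.ofReal (W T (x - u)) *
          ENNReal.ofReal (H40.Es S u t g') := by rw [swap g' hg']
    _ ≤ ENNReal.ofReal (9 * Real.pi) * ∫⁻ u, ENNReal.ofReal (W T (x - u)) *
          (ENNReal.ofReal D * ENNReal.ofReal (H40.Es S u t g)) := by
        refine mul_le_mul_right (lintegral_mono fun u => mul_le_mul_right ?_ _) _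
        rw [← ENNReal.ofReal_mul hD0.le]
        exact ENNReal.ofReal_le_ofReal (hEs u)
    _ = ENNReal.ofReal (9 * Real.pi) * (ENNReal.ofReal D * ∫⁻ u, ENNReal.ofReal (W T (x - u)) *
          ENNReal.ofReal (H40.Es S u t g)) := by
        rw [← lintegral_const_mul' (ENNReal.ofReal D) (fun u => ENNReal.ofReal (W T (x - u)) *
          ENNReal.ofReal (H40.Es S u t g)) ENNReal.ofReal_ne_top]
        congr 1
        refine lintegral_congr fun u => ?_
        ring
    _ = ENNReal.ofReal (9 * Real.pi) * (ENNReal.ofReal D * ∫⁻ v, (∫⁻ u, ENNReal.ofReal (W T (x - u)) *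
          ENNReal.ofReal (W S (u - v))) * ‖H40.ev g v t‖ₑ ^ 2) := by rw [swap g hg]
    _ ≤ ENNReal.ofReal (9 * Real.pi) * (ENNReal.ofReal D * ∫⁻ v, (ENNReal.ofReal 100 *
          ENNReal.ofReal (W T (x - v))) * ‖H40.ev g v t‖ₑ ^ 2) :=
        mul_le_mul_right (mul_le_mul_right (lintegral_mono fun v =>
          mul_le_mul_left (W2_conv hS hST x v) _) _) _
    _ = ENNReal.ofReal (9 * Real.pi) * (ENNReal.ofReal D * (ENNReal.ofReal 100 *
          ENNReal.ofReal (H40.Es T x t g))) := by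
        rw [← H40.Es_lint hT x t hg.1, ← lintegral_const_mul' (ENNReal.ofReal 100)
          (fun v => ENNReal.ofReal (W T (x - v)) * ‖H40.ev g v t‖ₑ ^ 2) ENNReal.ofReal_ne_top]
        congr 2
        refine lintegral_congr fun v => ?_
        ring
    _ = _ := by
        rw [← ENNReal.ofReal_mul (by norm_num), ← ENNReal.ofReal_mul hD0.le,
          ← ENNReal.ofReal_mul (by positivity)]
        congr 1
        ring

/-! ### the exceptional squares -/

/-- **exceptional squares**: outside few `S`-squares the energy of `χ g'` at scale `S` is controlled by the energy of `g`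
at the coarser scale `T` -/
theorem bad {B : ℝ} (hB : 1 ≤ B) {χ : ℝ → ℝ} (hχ : Bump χ) : ∃ A C : ℝ, 0 < A ∧ 0 < C ∧
    ∀ (m : ℕ) (T t₀ b Y C₀ C₁ : ℝ) (g g' : ℝ → ℂ) (n : ℕ) (c : ℕ → ℂ) (y η : ℕ → ℝ), (2:ℝ) ^ m ≤ T →
    0 ≤ t₀ → t₀ ≤ (4:ℝ) ^ m → 0 < b → 0 < Y → (∀ ξ, g ξ ≠ 0 → χ ξ = 1) →
    Pruned B b C₀ C₁ ((2:ℝ) ^ m) t₀ g g' n c y η →
    ∃ BB : Finset (ℤ × ℤ), Y ^ 2 * BB.card ≤ C * (T / 2 ^ m) ^ 4 * b ^ 2 * ms g ∧
      ∀ z : ℝ × ℝ, 0 ≤ z.2 → z.2 < (4:ℝ) ^ m → ∫ x, W T (z.1 - x) * ‖sol g x z.2‖ ^ 2 ≤ Y →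
        (⌊z.1 / 2 ^ m⌋, ⌊z.2 / 2 ^ m⌋) ∉ BB →
        ∫ x, W ((2:ℝ) ^ m) (z.1 - x) * ‖sol (fun ξ => χ ξ * g' ξ) x z.2‖ ^ 2 ≤ A * Y := by
  obtain ⟨C, hC, hcount⟩ := bb_count hB
  obtain ⟨CB, hCB, hBern⟩ := H40.stBern B hB χ hχ
  obtain ⟨CD, hCD, hdom⟩ := Es_dom hB
  obtain ⟨CW, hCW, hW⟩ := H972.stEnW B hB
  have hχ0 := hχ
  obtain ⟨hsm, hcp⟩ := hχ
  set ψc : ℝ → ℂ := fun ξ => (χ ξ : ℂ) with hψc
  have hsc : ContDiff ℝ ∞ ψc := by
    exact (Complex.ofRealCLM.contDiff).comp (hsm.of_le (by simp))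
  have hcc : HasCompactSupport ψc := hcp.comp_left (g := fun x : ℝ => (x : ℂ)) (by simp)
  obtain ⟨CP, hCP, hprop⟩ := H40.Es_prop ψc hsc hcc
  have hc := H40.c0_pos
  have hB0 : 0 < B := by linarith
  set C4 := CW * (CD * (CP * 1156)) with hC4
  have hC40 : 0 ≤ C4 := by rw [hC4]; positivity
  set A₁ := CB * (C4 + 1) with hA₁
  have hA₁0 : 0 < A₁ := by rw [hA₁]; positivity
  refine ⟨9 * B / H40.c0 * A₁, C, by positivity, hC, ?_⟩
  intro m T t₀ b Y C₀ C₁ g g' n c y η hST ht₀ ht₀' hb hY hsupp hPr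
  set S : ℝ := (2:ℝ) ^ m with hS
  have hS1 : 1 ≤ S := one_le_pow₀ (by norm_num)
  have hS0 : 0 < S := by linarith
  have hT1 : 1 ≤ T := hS1.trans hST
  have hT0 : 0 < T := by linarith
  have hSS : S ^ 2 = (4:ℝ) ^ m := by rw [hS, ← pow_mul, mul_comm, pow_mul]; norm_num
  have hg := hPr.good
  have hg' := hPr.good'
  have hms : ms g' ≤ ms g := by
    have := hPr.mass
    have h0 : 0 ≤ ∑ i ∈ Finset.range n, ‖c i‖ ^ 2 := Finset.sum_nonneg fun i _ => by positivity
    linarith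
  -- domination at all times of the window
  have hlo : ∀ u t, |t - t₀| ≤ S ^ 2 → En B S u t g' ≤ En B S u t g := by
    intro u t ht
    have h1 := hPr.lo u t ht
    have h0 : 0 ≤ ∑ i ∈ Finset.range n, ‖c i‖ ^ 2 * W (B * S) (u - y i - 2 * η i * (t - t₀)) :=
      Finset.sum_nonneg fun i _ => mul_nonneg (by positivity) (H972.W_nonneg (by positivity) _)
    linarith
  have hgoodχ : Good (fun ξ => χ ξ * g' ξ) := by
    obtain ⟨bψ, hbψ⟩ := hsc.continuous.bounded_above_of_compact_support hcc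
    refine ⟨hg'.1.bdd_mul (c := bψ) hsc.continuous.aestronglyMeasurable (Filter.Eventually.of_forall hbψ), ?_⟩
    have hm : AEStronglyMeasurable (fun ξ => ψc ξ * g' ξ) :=
      hsc.continuous.aestronglyMeasurable.mul hg'.2.1
    refine (hg'.2.const_mul (bψ : ℂ)).mono hm (Filter.Eventually.of_forall fun ξ => ?_)
    have hb0 : 0 ≤ bψ := (norm_nonneg _).trans (hbψ 0)
    rw [norm_mul, norm_mul, Complex.norm_of_nonneg hb0]
    exact mul_le_mul_of_nonneg_right (hbψ ξ) (norm_nonneg _)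
  have hχg : (fun ξ => ψc ξ * g ξ) = g := by
    funext ξ
    by_cases h0 : g ξ = 0
    · show ψc ξ * g ξ = g ξ
      rw [h0, mul_zero]
    · show ψc ξ * g ξ = g ξ
      have : ψc ξ = 1 := by rw [hψc]; simp [hsupp ξ h0]
      rw [this, one_mul]
  set P : ℤ × ℤ → Prop := fun q => ∃ z : ℝ × ℝ, 0 ≤ z.2 ∧ z.2 < (4:ℝ) ^ m ∧
    (⌊z.1 / S⌋, ⌊z.2 / S⌋) = q ∧ H40.Es T z.1 z.2 g ≤ Y ∧ A₁ * Y < En B S z.1 z.2 (fun ξ => χ ξ * g' ξ) with hP
  -- the bound for finite sets of bad squares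
  have hfin : ∀ Q : Finset (ℤ × ℤ), (∀ q ∈ Q, P q) → Y ^ 2 * Q.card ≤ C * (T / S) ^ 4 * b ^ 2 * ms g := by
    intro Q hQ
    refine (hcount S T t₀ b Y hS0 hST hb hY g' hg' hPr.small Q ?_).trans
      (mul_le_mul_of_nonneg_left hms (by positivity))
    intro q hq x t hx1 hx2 ht1 ht2
    obtain ⟨z, hz0, hz1, hzq, hzT, hzA⟩ := hQ q hq
    have hq1 : ⌊z.1 / S⌋ = q.1 := by rw [← hzq]
    have hq2 : ⌊z.2 / S⌋ = q.2 := by rw [← hzq]
    have a1 : (q.1 : ℝ) * S ≤ z.1 := by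
      rw [← hq1, ← le_div_iff₀ hS0]; exact Int.floor_le _
    have a2 : z.1 < (q.1 + 1) * S := by
      rw [← hq1, ← div_lt_iff₀ hS0]; exact Int.lt_floor_add_one _
    have a3 : (q.2 : ℝ) * S ≤ z.2 := by
      rw [← hq2, ← le_div_iff₀ hS0]; exact Int.floor_le _
    have a4 : z.2 < (q.2 + 1) * S := by
      rw [← hq2, ← div_lt_iff₀ hS0]; exact Int.lt_floor_add_one _
    -- the square lies in the time window
    have hq20 : (0:ℤ) ≤ q.2 := by rw [← hq2]; exact Int.floor_nonneg.2 (div_nonneg hz0 hS0.le)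
    have hq2S : q.2 + 1 ≤ (2:ℤ) ^ m := by
      have h1 : (q.2 : ℝ) < (2:ℝ) ^ m := by
        have h2 : (q.2 : ℝ) * S < S * S := by
          calc (q.2 : ℝ) * S ≤ z.2 := a3
            _ < (4:ℝ) ^ m := hz1
            _ = S * S := by rw [← hSS]; ring
        exact lt_of_mul_lt_mul_right h2 hS0.le
      have h3 : q.2 < (2:ℤ) ^ m := by exact_mod_cast h1
      omega
    have ht0 : 0 ≤ t := le_trans (mul_nonneg (by exact_mod_cast hq20) hS0.le) ht1
    have htS : t ≤ S ^ 2 := by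
      have h1 : ((q.2 : ℝ) + 1) ≤ S := by rw [hS]; exact_mod_cast hq2S
      calc t ≤ (q.2 + 1) * S := ht2.le
        _ ≤ S * S := mul_le_mul_of_nonneg_right h1 hS0.le
        _ = S ^ 2 := by ring
    rw [← hSS] at ht₀'
    have htt : |t - t₀| ≤ S ^ 2 := by rw [abs_le]; constructor <;> linarith
    refine ⟨htt.trans (by nlinarith [sq_nonneg S]), ?_⟩
    have hxz : |x - z.1| ≤ S := by rw [abs_le]; constructor <;> nlinarith
    have htz : |t - z.2| ≤ S := by rw [abs_le]; constructor <;> nlinarith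
    -- lower bound at scale S
    have b1 : A₁ * Y < CB * En B S x t g' := by
      have := (hBern S hS1 x t z.1 z.2 (by rw [abs_sub_comm]; linarith)
        (by rw [abs_sub_comm]; linarith) g' hg').2
      exact hzA.trans_le this
    have b2 : (C4 + 1) * Y < En B S x t g' := by
      have h1 : CB * ((C4 + 1) * Y) < CB * En B S x t g' := by
        calc CB * ((C4 + 1) * Y) = A₁ * Y := by rw [hA₁]; ring
          _ < _ := b1
      exact lt_of_mul_lt_mul_left h1 hCB.le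
    -- upper bound at scale T
    have b3 : En B T x t g' ≤ C4 * Y := by
      have c1 := (hW T hT0 g' hg' x t).2
      have c2 : (∫ y, W T (x - y) * ‖sol g' y t‖ ^ 2) = H40.Es T x t g' := by
        unfold H40.Es
        simp_rw [H40.sol_eq_ev]
      rw [c2] at c1
      have c3 := hdom S T t g g' hS0 hST hg hg' (fun u => hlo u t htt) x
      have c4 := hprop T x z.2 t g hT1 hg.1 (by linarith)
      rw [hχg] at c4
      have c5 := H40.Es_shift hT0 hg.1 (x := x) (x0 := z.1) (t1 := z.2) (by linarith)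
      calc En B T x t g' ≤ CW * (CD * (CP * (1156 * Y))) := by
            refine c1.trans (mul_le_mul_of_nonneg_left (c3.trans (mul_le_mul_of_nonneg_left
              (c4.trans (mul_le_mul_of_nonneg_left (c5.trans ?_) hCP)) hCD.le)) hCW.le)
            exact mul_le_mul_of_nonneg_left hzT (by norm_num)
        _ = _ := by rw [hC4]; ring
    linarith
  -- finiteness
  have hset : Set.Finite {q | P q} := by
    by_contra hinf
    have hinf : Set.Infinite {q | P q} := hinf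
    set M := C * (T / S) ^ 4 * b ^ 2 * ms g with hM
    obtain ⟨N, hN⟩ := exists_nat_gt (M / Y ^ 2)
    obtain ⟨Q, hQ, hQc⟩ := hinf.exists_subset_card_eq N
    have := hfin Q (fun q hq => hQ hq)
    rw [hQc] at this
    rw [div_lt_iff₀ (by positivity)] at hN
    linarith
  refine ⟨hset.toFinset, hfin _ fun q hq => by simpa using hq, ?_⟩
  intro z hz0 hz1 hzT hzB
  have hnot : ¬ P (⌊z.1 / S⌋, ⌊z.2 / S⌋) := fun h => hzB (by simpa using h)
  have hEsT : H40.Es T z.1 z.2 g ≤ Y := by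
    have c2 : (∫ y, W T (z.1 - y) * ‖sol g y z.2‖ ^ 2) = H40.Es T z.1 z.2 g := by
      unfold H40.Es
      simp_rw [H40.sol_eq_ev]
    rwa [← c2]
  have hle : En B S z.1 z.2 (fun ξ => χ ξ * g' ξ) ≤ A₁ * Y := by
    by_contra hcon
    exact hnot ⟨z, hz0, hz1, rfl, hEsT, not_le.1 hcon⟩
  have h1 := H40.Es_le_En hB hS0 hgoodχ.1 z.1 z.2
  have c2 : (∫ y, W S (z.1 - y) * ‖sol (fun ξ => χ ξ * g' ξ) y z.2‖ ^ 2) =
      H40.Es S z.1 z.2 (fun ξ => χ ξ * g' ξ) := by
    unfold H40.Es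
    simp_rw [H40.sol_eq_ev]
  rw [c2]
  calc H40.Es S z.1 z.2 (fun ξ => χ ξ * g' ξ) ≤ 9 * B / H40.c0 * En B S z.1 z.2 (fun ξ => χ ξ * g' ξ) := h1
    _ ≤ 9 * B / H40.c0 * (A₁ * Y) := mul_le_mul_of_nonneg_left hle (by positivity)
    _ = _ := by ring

end Vale.Agent.P076.H249
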