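import Vale.Agent.P076.H249.Bad
import Vale.Agent.P076.H629.Top
import Vale.Agent.P076.H523.Spec

/-! # P076, TS.SLAB: the crude step `StCR` -/

set_option linter.all false

open MeasureTheory Set
open scoped ContDiff

namespace Vale.Agent.P076.H249

open Vale.Agent.P076.X

theorem W_two_scales {S T : ℝ} (hS : 0 < S) (hST : S ≤ T) (u : ℝ) : W S u ≤ T / S * W T u := by
  have hT : 0 < T := hS.trans_le hST
  have hpi := Real.pi_pos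
  rw [H40.W_eq' hS, H40.W_eq' hT]
  have h1 : S ^ 2 * (T ^ 2 + u ^ 2) ≤ T ^ 2 * (S ^ 2 + u ^ 2) := by
    have : S ^ 2 ≤ T ^ 2 := pow_le_pow_left₀ hS.le hST 2
    nlinarith [sq_nonneg u, mul_le_mul_of_nonneg_right this (sq_nonneg u)]
  have h2 : S ^ 4 * (T ^ 2 + u ^ 2) ^ 2 ≤ T ^ 4 * (S ^ 2 + u ^ 2) ^ 2 := by
    have := pow_le_pow_left₀ (by positivity) h1 2
    calc S ^ 4 * (T ^ 2 + u ^ 2) ^ 2 = (S ^ 2 * (T ^ 2 + u ^ 2)) ^ 2 := by ring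
      _ ≤ _ := this
      _ = _ := by ring
  rw [← mul_div_assoc, div_le_div_iff₀ (by positivity) (by positivity)]
  have e1 : 2 * S ^ 3 / Real.pi * (T ^ 2 + u ^ 2) ^ 2 = (2 / Real.pi / S) * (S ^ 4 * (T ^ 2 + u ^ 2) ^ 2) := by
    field_simp
  have e2 : T / S * (2 * T ^ 3 / Real.pi) * (S ^ 2 + u ^ 2) ^ 2 =
      (2 / Real.pi / S) * (T ^ 4 * (S ^ 2 + u ^ 2) ^ 2) := by
    field_simp
  rw [e1, e2]
  exact mul_le_mul_of_nonneg_left h2 (by positivity)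

/-- pruning at scale `2^m` of one profile -/
theorem one_profile {ψ₁ ψ₂ χ : ℝ → ℝ} (h₁ : Bump ψ₁) (h₂ : Bump ψ₂) (hχ : Bump χ)
    (h1 : ∀ ξ, |ξ| ≤ 1 → χ ξ = 1) : ∃ A C : ℝ, 0 < A ∧ 0 < C ∧
    ∀ (m : ℕ) (T α Y : ℝ) (g : ℝ → ℂ), (2:ℝ) ^ m ≤ T → 0 < α → 0 < Y → Good g → (∀ ξ, g ξ ≠ 0 → |ξ| ≤ 1) →
    ∃ (BB : Finset (ℤ × ℤ)) (g' : ℝ → ℂ), Good g' ∧ ms g' ≤ ms g ∧
      α ^ 2 * BB.card ≤ C * (T / 2 ^ m) ^ 6 * ms g ∧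
      ∀ z : ℝ × ℝ, 0 ≤ z.2 → z.2 < (4:ℝ) ^ m → ∫ x, W T (z.1 - x) * ‖sol g x z.2‖ ^ 2 ≤ Y →
        ‖sol (fun ξ => ψ₁ ξ * g ξ) z.1 z.2 - sol (fun ξ => ψ₁ ξ * g' ξ) z.1 z.2‖ ≤ α / 2 ∧
        ‖sol (fun ξ => ψ₂ ξ * g ξ) z.1 z.2 - sol (fun ξ => ψ₂ ξ * g' ξ) z.1 z.2‖ ≤ α / 2 ∧
        ((⌊z.1 / 2 ^ m⌋, ⌊z.2 / 2 ^ m⌋) ∉ BB →
          ∫ x, W ((2:ℝ) ^ m) (z.1 - x) * ‖sol (fun ξ => χ ξ * g' ξ) x z.2‖ ^ 2 ≤ A * Y) := by
  obtain ⟨B, hB, hPr⟩ := stPrune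
  obtain ⟨C₁, hC₁, hPr⟩ := hPr 1 le_rfl
  obtain ⟨A, Cb, hA, hCb, hbad⟩ := bad hB hχ
  obtain ⟨CW, hCW, hW⟩ := H972.stEnW B hB
  obtain ⟨K₁, hK₁0, hK₁⟩ := H457.stKer B hB ψ₁ h₁
  obtain ⟨K₂, hK₂0, hK₂⟩ := H457.stKer B hB ψ₂ h₂
  have hB0 : 0 < B := by linarith
  set CK := K₁ + K₂ with hCK
  have hCK0 : 0 < CK := by rw [hCK]; linarith
  set b0 := 4 * CK * CW with hb0
  have hb00 : 0 < b0 := by rw [hb0]; positivity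
  refine ⟨A, Cb * b0 ^ 2, hA, by positivity, ?_⟩
  intro m T α Y g hST hα hY hg hs
  set S : ℝ := (2:ℝ) ^ m with hS
  have hS1 : 1 ≤ S := one_le_pow₀ (by norm_num)
  have hS0 : 0 < S := by linarith
  have hT0 : 0 < T := hS0.trans_le hST
  have hSS : S ^ 2 = (4:ℝ) ^ m := by rw [hS, ← pow_mul, mul_comm, pow_mul]; norm_num
  have h4m : (0:ℝ) < (4:ℝ) ^ m := by positivity
  set b := b0 * (T / S) * Y / α with hb
  have hb_pos : 0 < b := by rw [hb]; positivity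
  obtain ⟨g', n, c, y, η, hP⟩ := hPr S ((4:ℝ) ^ m / 2) b hS0 hb_pos g hg
  obtain ⟨BB, hcard, hgood⟩ := hbad m T ((4:ℝ) ^ m / 2) b Y 1 C₁ g g' n c y η hST (by positivity)
    (by linarith) hb_pos hY (fun ξ hξ => h1 ξ (hs ξ hξ)) hP
  have hms : ms g' ≤ ms g := by
    have := hP.mass
    have h0 : 0 ≤ ∑ i ∈ Finset.range n, ‖c i‖ ^ 2 := Finset.sum_nonneg fun i _ => by positivity
    linarith
  refine ⟨BB, g', hP.good', hms, ?_, ?_⟩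
  · have e1 : Cb * (T / S) ^ 4 * b ^ 2 * ms g = Y ^ 2 * ((Cb * b0 ^ 2 * (T / S) ^ 6 * ms g) / α ^ 2) := by
      rw [hb]; field_simp
    rw [e1] at hcard
    have h3 := le_of_mul_le_mul_left hcard (by positivity : 0 < Y ^ 2)
    rw [le_div_iff₀ (by positivity)] at h3
    linarith
  · intro z hz0 hz1 hzT
    have hzt : |z.2 - (4:ℝ) ^ m / 2| ≤ S ^ 2 := by
      rw [hSS, abs_le]; constructor <;> linarith
    have hEn : En B S z.1 z.2 g ≤ CW * (T / S * Y) := by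
      refine (hW S hS0 g hg z.1 z.2).2.trans (mul_le_mul_of_nonneg_left ?_ hCW.le)
      have i1 := (hW S hS0 g hg z.1 z.2).1
      have i2 := (hW T hT0 g hg z.1 z.2).1
      calc ∫ y, W S (z.1 - y) * ‖sol g y z.2‖ ^ 2
          ≤ ∫ y, T / S * (W T (z.1 - y) * ‖sol g y z.2‖ ^ 2) := by
            refine integral_mono i1 (i2.const_mul _) fun y => ?_
            show W S (z.1 - y) * ‖sol g y z.2‖ ^ 2 ≤ T / S * (W T (z.1 - y) * ‖sol g y z.2‖ ^ 2)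
            rw [← mul_assoc]
            exact mul_le_mul_of_nonneg_right (W_two_scales hS0 hST _) (by positivity)
        _ = T / S * ∫ y, W T (z.1 - y) * ‖sol g y z.2‖ ^ 2 := integral_const_mul _ _
        _ ≤ T / S * Y := mul_le_mul_of_nonneg_left hzT (by positivity)
    have hEn' : 0 ≤ En B S z.1 z.2 g' := H629.En_nonneg hB0 hS0 _ _ _
    have key : ∀ (ψ : ℝ → ℝ) (K : ℝ), Bump ψ → 0 < K → K ≤ CK →
        (∀ s : ℝ, 1 ≤ s → ∀ y η t₀ t t' x : ℝ, |t - t₀| ≤ s ^ 2 → |t' - t| ≤ 4 * s →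
          ‖sol (fun ξ => ψ ξ * pk s y η t₀ ξ) x t'‖ ≤
            K * Real.sqrt s * W (B * s) (x - y - 2 * η * (t - t₀))) →
        ‖sol (fun ξ => ψ ξ * g ξ) z.1 z.2 - sol (fun ξ => ψ ξ * g' ξ) z.1 z.2‖ ≤ α / 2 := by
      intro ψ K hψ hK0 hKC hK
      have h3 := H629.step_diff hP hS0 hb_pos hB hψ hK0 (x := z.1) (t := z.2) (t' := z.2)
        (fun y η => hK S hS1 y η _ z.2 z.2 z.1 hzt (by rw [sub_self, abs_zero]; positivity)) hzt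
      refine h3.trans ?_
      have h4 : En B S z.1 z.2 g - En B S z.1 z.2 g' ≤ CW * (T / S * Y) := by linarith
      calc 2 * K / b * (En B S z.1 z.2 g - En B S z.1 z.2 g')
          ≤ 2 * K / b * (CW * (T / S * Y)) := mul_le_mul_of_nonneg_left h4 (by positivity)
        _ ≤ 2 * CK / b * (CW * (T / S * Y)) := by
            refine mul_le_mul_of_nonneg_right ?_ (by positivity)
            exact div_le_div_of_nonneg_right (by linarith) hb_pos.le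
        _ = α / 2 := by
            rw [hb, hb0]; field_simp; ring
    exact ⟨key ψ₁ K₁ h₁ hK₁0 (by rw [hCK]; linarith) hK₁, key ψ₂ K₂ h₂ hK₂0 (by rw [hCK]; linarith) hK₂,
      fun hzB => hgood z hz0 hz1 hzT hzB⟩

/-- a bump vanishes outside an interval -/
theorem bump_supp {χ : ℝ → ℝ} (hχ : Bump χ) : ∃ K : ℝ, 1 ≤ K ∧ ∀ ξ, χ ξ ≠ 0 → |ξ| ≤ K := by
  obtain ⟨R, hR⟩ := hχ.2.isCompact.isBounded.subset_closedBall (0:ℝ)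
  refine ⟨max 1 R, le_max_left _ _, fun ξ hξ => ?_⟩
  have := hR (subset_tsupport _ hξ)
  rw [mem_closedBall_zero_iff] at this
  exact this.trans (le_max_right _ _)

/-- multiplication of a profile by a bump -/
theorem bump_mul {χ : ℝ → ℝ} (hχ : Bump χ) : ∃ b : ℝ, 0 < b ∧ ∀ g : ℝ → ℂ, Good g →
    Good (fun ξ => χ ξ * g ξ) ∧ ms (fun ξ => χ ξ * g ξ) ≤ b * ms g := by
  obtain ⟨hsm, hcp⟩ := hχ
  have hsc : Continuous (fun ξ => (χ ξ : ℂ)) := Complex.continuous_ofReal.comp hsm.continuous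
  have hcc : HasCompactSupport (fun ξ => (χ ξ : ℂ)) := hcp.comp_left (g := fun x : ℝ => (x : ℂ)) (by simp)
  obtain ⟨bψ, hbψ⟩ := hsc.bounded_above_of_compact_support hcc
  have hb0 : 0 ≤ bψ := (norm_nonneg _).trans (hbψ 0)
  refine ⟨bψ ^ 2 + 1, by positivity, fun g hg => ?_⟩
  have hgood : Good (fun ξ => χ ξ * g ξ) := by
    refine ⟨hg.1.bdd_mul (c := bψ) hsc.aestronglyMeasurable (Filter.Eventually.of_forall hbψ), ?_⟩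
    have hm : AEStronglyMeasurable (fun ξ => (χ ξ : ℂ) * g ξ) := hsc.aestronglyMeasurable.mul hg.2.1
    refine (hg.2.const_mul (bψ : ℂ)).mono hm (Filter.Eventually.of_forall fun ξ => ?_)
    rw [norm_mul, norm_mul, Complex.norm_of_nonneg hb0]
    exact mul_le_mul_of_nonneg_right (hbψ ξ) (norm_nonneg _)
  refine ⟨hgood, ?_⟩
  have hsq := H629.good_sq hg
  unfold ms
  rw [← integral_const_mul]
  refine integral_mono (H629.good_sq hgood) (hsq.const_mul _) fun ξ => ?_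
  show ‖(χ ξ : ℂ) * g ξ‖ ^ 2 ≤ (bψ ^ 2 + 1) * ‖g ξ‖ ^ 2
  rw [norm_mul, mul_pow]
  refine mul_le_mul_of_nonneg_right ?_ (by positivity)
  have := pow_le_pow_left₀ (norm_nonneg _) (hbψ ξ) 2
  linarith

/-- **the crude step** -/
theorem stCR : H523.StCR := by
  refine ⟨6, fun ψ₁ ψ₂ hψ₁ hψ₂ δ hδ hsep => ?_⟩
  obtain ⟨K₁, hK₁, hK₁s⟩ := bump_supp hψ₁
  obtain ⟨K₂, hK₂, hK₂s⟩ := bump_supp hψ₂
  obtain ⟨χ, hχ, hχ1⟩ := H629.bump_one (K₁ + K₂) (by linarith)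
  obtain ⟨K, hK, hKs⟩ := bump_supp hχ
  obtain ⟨bχ, hbχ, hmul⟩ := bump_mul hχ
  obtain ⟨A, Cp, hA, hCp, hone⟩ := one_profile hψ₁ hψ₂ hχ (fun ξ hξ => hχ1 ξ (by linarith))
  obtain ⟨C₂, hC₂, hX⟩ := H629.stX2K K hK ψ₁ ψ₂ hψ₁ hψ₂ δ hδ hsep
  have hC₂0 : 0 < C₂ := by linarith
  have hψχ₁ : ∀ ξ, (ψ₁ ξ : ℂ) * (χ ξ : ℂ) = ψ₁ ξ := by
    intro ξ
    by_cases h : ψ₁ ξ = 0
    · rw [h]; simp
    · rw [hχ1 ξ (by have := hK₁s ξ h; linarith)]; simp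
  have hψχ₂ : ∀ ξ, (ψ₂ ξ : ℂ) * (χ ξ : ℂ) = ψ₂ ξ := by
    intro ξ
    by_cases h : ψ₂ ξ = 0
    · rw [h]; simp
    · rw [hχ1 ξ (by have := hK₂s ξ h; linarith)]; simp
  set D := 64 * C₂ * A ^ 2 * bχ with hD
  have hD0 : 0 < D := by rw [hD]; positivity
  refine ⟨1 + 4 * C₂ * A + Cp + D, by have : 0 < 4 * C₂ * A := by positivity
                                      linarith, ?_⟩
  intro m T α hST hα
  have hS0 : (0:ℝ) < 2 ^ m := by positivity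
  have hTS : 1 ≤ (T / 2 ^ m) ^ 6 := one_le_pow₀ (by rwa [le_div_iff₀ hS0, one_mul])
  -- the exceptional sets
  have hch : ∀ (g : ℝ → ℂ) (Y : ℝ), ∃ (BB : Finset (ℤ × ℤ)) (g' : ℝ → ℂ),
      0 < Y → Good g → (∀ ξ, g ξ ≠ 0 → |ξ| ≤ 1) →
      Good g' ∧ ms g' ≤ ms g ∧ α ^ 2 * BB.card ≤ Cp * (T / 2 ^ m) ^ 6 * ms g ∧
      ∀ z : ℝ × ℝ, 0 ≤ z.2 → z.2 < (4:ℝ) ^ m → ∫ x, W T (z.1 - x) * ‖sol g x z.2‖ ^ 2 ≤ Y →
        ‖sol (fun ξ => ψ₁ ξ * g ξ) z.1 z.2 - sol (fun ξ => ψ₁ ξ * g' ξ) z.1 z.2‖ ≤ α / 2 ∧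
        ‖sol (fun ξ => ψ₂ ξ * g ξ) z.1 z.2 - sol (fun ξ => ψ₂ ξ * g' ξ) z.1 z.2‖ ≤ α / 2 ∧
        ((⌊z.1 / 2 ^ m⌋, ⌊z.2 / 2 ^ m⌋) ∉ BB →
          ∫ x, W ((2:ℝ) ^ m) (z.1 - x) * ‖sol (fun ξ => χ ξ * g' ξ) x z.2‖ ^ 2 ≤ A * Y) := by
    intro g Y
    by_cases hcond : 0 < Y ∧ Good g ∧ (∀ ξ, g ξ ≠ 0 → |ξ| ≤ 1)
    · obtain ⟨BB, g', h⟩ := hone m T α Y g hST hα hcond.1 hcond.2.1 hcond.2.2
      exact ⟨BB, g', fun _ _ _ => h⟩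
    · exact ⟨∅, g, fun a b c => absurd ⟨a, b, c⟩ hcond⟩
  choose BB G hBB using hch
  refine ⟨BB, BB, ?_, ?_⟩
  · intro g Y hgm hgb hgs hY _
    have h := (hBB g Y hY (H629.good_of_bdd hgm hgb hgs) hgs).2.2.1
    have h2 : Cp * (T / 2 ^ m) ^ 6 * ms g ≤ (1 + 4 * C₂ * A + Cp + D) * (T / 2 ^ m) ^ 6 * ms g := by
      refine mul_le_mul_of_nonneg_right (mul_le_mul_of_nonneg_right ?_ (by positivity)) (H629.ms_nonneg g)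
      have : 0 < 4 * C₂ * A := by positivity
      linarith
    exact ⟨h.trans h2, h.trans h2⟩
  · intro g₁ g₂ hm₁ hm₂ hb₁ hb₂ hs₁ hs₂ Y₁ Y₂ hY₁ hY₂ hCY₁ hCY₂ E hEs hE
    obtain ⟨G₁, M₁, -, F₁⟩ := hBB g₁ Y₁ hY₁ (H629.good_of_bdd hm₁ hb₁ hs₁) hs₁
    obtain ⟨G₂, M₂, -, F₂⟩ := hBB g₂ Y₂ hY₂ (H629.good_of_bdd hm₂ hb₂ hs₂) hs₂
    obtain ⟨X₁, N₁⟩ := hmul _ G₁
    obtain ⟨X₂, N₂⟩ := hmul _ G₂
    have hthr : ∀ Y : ℝ, 0 < Y → (1 + 4 * C₂ * A + Cp + D) * (T / 2 ^ m) ^ 6 * Y ≤ α ^ 2 →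
        C₂ * (A * Y) ≤ (α / 2) ^ 2 := by
      intro Y hY h
      have h3 : 4 * C₂ * A * 1 * Y ≤ (1 + 4 * C₂ * A + Cp + D) * (T / 2 ^ m) ^ 6 * Y := by
        refine mul_le_mul_of_nonneg_right (mul_le_mul ?_ hTS (by norm_num) (by positivity)) hY.le
        linarith
      have e : (α / 2) ^ 2 = α ^ 2 / 4 := by ring
      rw [e]
      linarith
    have hes₁ : (fun ξ => (ψ₁ ξ : ℂ) * ((χ ξ : ℂ) * G g₁ Y₁ ξ)) = fun ξ => (ψ₁ ξ : ℂ) * G g₁ Y₁ ξ := by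
      funext ξ; rw [← mul_assoc, hψχ₁]
    have hes₂ : (fun ξ => (ψ₂ ξ : ℂ) * ((χ ξ : ℂ) * G g₂ Y₂ ξ)) = fun ξ => (ψ₂ ξ : ℂ) * G g₂ Y₂ ξ := by
      funext ξ; rw [← mul_assoc, hψχ₂]
    have hsX : ∀ f : ℝ → ℂ, ∀ ξ, (χ ξ : ℂ) * f ξ ≠ 0 → |ξ| ≤ K := by
      intro f ξ h
      refine hKs ξ fun h0 => h ?_
      rw [h0]; simp
    have hfin := hX m (fun ξ => (χ ξ : ℂ) * G g₁ Y₁ ξ) (fun ξ => (χ ξ : ℂ) * G g₂ Y₂ ξ) X₁ X₂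
      (hsX _) (hsX _) (A * Y₁) (A * Y₂) (α / 2) (by positivity) (by positivity) (by positivity)
      (hthr Y₁ hY₁ hCY₁) (hthr Y₂ hY₂ hCY₂) E hEs ?_
    · have hM : ms (fun ξ => (χ ξ : ℂ) * G g₁ Y₁ ξ) + ms (fun ξ => (χ ξ : ℂ) * G g₂ Y₂ ξ) ≤
          bχ * (ms g₁ + ms g₂) := by
        have a1 := N₁.trans (mul_le_mul_of_nonneg_left M₁ hbχ.le)
        have a2 := N₂.trans (mul_le_mul_of_nonneg_left M₂ hbχ.le)
        linarith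
      have hMM : 0 ≤ ms g₁ + ms g₂ := add_nonneg (H629.ms_nonneg _) (H629.ms_nonneg _)
      calc α ^ 2 * E.card = 4 * ((α / 2) ^ 2 * E.card) := by ring
        _ ≤ 4 * (C₂ * (A * Y₁ * (A * Y₂) / (α / 2) ^ 4) * (4:ℝ) ^ m *
            (ms (fun ξ => (χ ξ : ℂ) * G g₁ Y₁ ξ) + ms (fun ξ => (χ ξ : ℂ) * G g₂ Y₂ ξ))) :=
            mul_le_mul_of_nonneg_left hfin (by norm_num)
        _ ≤ 4 * (C₂ * (A * Y₁ * (A * Y₂) / (α / 2) ^ 4) * (4:ℝ) ^ m * (bχ * (ms g₁ + ms g₂))) :=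
            mul_le_mul_of_nonneg_left (mul_le_mul_of_nonneg_left hM (by positivity)) (by norm_num)
        _ = D * (Y₁ * Y₂ / α ^ 4) * (4:ℝ) ^ m * (ms g₁ + ms g₂) := by
            rw [hD]; field_simp; ring
        _ ≤ _ := by
            refine mul_le_mul_of_nonneg_right (mul_le_mul_of_nonneg_right
              (mul_le_mul_of_nonneg_right ?_ (by positivity)) (by positivity)) hMM
            have : 0 < 4 * C₂ * A := by positivity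
            linarith
    · intro z hz
      obtain ⟨z0, z1, a1, a2, e1, e2, n1, n2⟩ := hE z hz
      obtain ⟨p1, -, p3⟩ := F₁ z z0 z1 e1
      obtain ⟨-, q2, q3⟩ := F₂ z z0 z1 e2
      refine ⟨z0, z1, ?_, ?_, p3 n1, q3 n2⟩
      · rw [hes₁]
        have := norm_sub_norm_le (sol (fun ξ => (ψ₁ ξ : ℂ) * g₁ ξ) z.1 z.2)
          (sol (fun ξ => (ψ₁ ξ : ℂ) * G g₁ Y₁ ξ) z.1 z.2)
        linarith
      · rw [hes₂]
        have := norm_sub_norm_le (sol (fun ξ => (ψ₂ ξ : ℂ) * g₂ ξ) z.1 z.2)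
          (sol (fun ξ => (ψ₂ ξ : ℂ) * G g₂ Y₂ ξ) z.1 z.2)
        linarith

end Vale.Agent.P076.H249
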